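import Vale.Agent.P151.Main

/-!
No infinite cluster at the critical point when the return probability of simple random walk is at
most a stretched exponential with exponent larger than one third.
-/

open MeasureTheory ProbabilityTheory
open scoped Classical

namespace Vale.Agent.Results.P151.CriticalBeyondHalf

theorem result :
    (∀ (V : Type) (_ : Infinite V) (G : SimpleGraph V) (_ : G.LocallyFinite)
        (Γ : Type) (_ : Group Γ) (_ : MulAction Γ V),
      (∀ (g : Γ) (x y : V), G.Adj (g • x) (g • y) ↔ G.Adj x y) →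
      (∀ x y : V, ∃ g : Γ, g • x = y) →
      (∀ x y : V, {z | ∃ g : Γ, g • x = x ∧ g • y = z}.ncard =
        {z | ∃ g : Γ, g • y = y ∧ g • x = z}.ncard) →
      G.Connected →
      ∀ C c γ : ℝ, 0 < c → 1 / 3 < γ →
      (∀ (x : V) (n : ℕ), ((G.finsetWalkLength (2 * n) x x).card : ℝ) ≤
        C * (G.degree x : ℝ) ^ (2 * n) * Real.exp (-c * (n : ℝ) ^ γ)) →
      P165.pc G < 1 ∧ ∀ p : unitInterval, (p : ℝ) = P165.pc G →
        setBer(G.edgeSet, p) (P165.percolates G) = 0) ∧
    (∀ (Γ : Type) (_ : Group Γ) (_ : Infinite Γ) (G : SimpleGraph Γ) (_ : G.LocallyFinite),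
      (∀ g x y : Γ, G.Adj (g * x) (g * y) ↔ G.Adj x y) →
      G.Connected →
      ∀ C c γ : ℝ, 0 < c → 1 / 3 < γ →
      (∀ n : ℕ, ((G.finsetWalkLength (2 * n) 1 1).card : ℝ) ≤
        C * (G.degree 1 : ℝ) ^ (2 * n) * Real.exp (-c * (n : ℝ) ^ γ)) →
      P165.pc G < 1 ∧ ∀ p : unitInterval, (p : ℝ) = P165.pc G →
        setBer(G.edgeSet, p) (P165.percolates G) = 0) := by
  refine ⟨fun V _ G _ Γ _ _ ha ht hu hc C c γ hc0 hγ hret =>
    P151.no_critical_percolation G ⟨ha, ht, hu⟩ hc hc0 hγ hret, ?_⟩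
  intro Γ _ _ G _ ha hc C c γ hc0 hγ hret
  exact P151.no_critical_percolation_group G ha hc hc0 hγ hret

end Vale.Agent.Results.P151.CriticalBeyondHalf
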